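import Vale.Agent.P211.Statement.Manifold

/-!
# P211: strictly positive sectional curvature
-/

namespace Vale.Agent.P211

noncomputable section

/-- The sectional curvature is positive on `U`: for all linearly independent `u`, `v`. -/
def SecPos (G : Euc4 → M4) (U : Set Euc4) : Prop :=
  ∀ x ∈ U, ∀ u v : Fin 4 → ℝ, LinearIndependent ℝ ![u, v] →
    0 < ∑ i, ∑ j, ∑ k, ∑ l, riem G x i j k l * u i * v j * u k * v l

/-- The sectional curvature is positive in every chart. -/
def IsSecPosAtlas {X : Type*} [TopologicalSpace X] [ChartedSpace Euc4 X] (G : X → Euc4 → M4) :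
    Prop :=
  ∀ p, SecPos (G p) (chartAt Euc4 p).target

end

end Vale.Agent.P211
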