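import Mathlib

/-!
# P211: the pointwise notions

A metric in a chart is a field of symmetric positive definite matrices on `ℝ^4`.  The Christoffel
symbols, the curvature tensor and the Ricci tensor are the classical coordinate expressions.
`riem G x i j k l` is `g(R(∂i, ∂j) ∂l, ∂k)`, so `riem G x i j i j` is the sectional curvature of
an orthonormal pair `∂i, ∂j`.
-/

namespace Vale.Agent.P211

noncomputable section

/-- The Euclidean space of dimension four. -/
abbrev Euc4 := EuclideanSpace ℝ (Fin 4)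

/-- A real four by four matrix. -/
abbrev M4 := Matrix (Fin 4) (Fin 4) ℝ

/-- A real three by three matrix. -/
abbrev M3 := Matrix (Fin 3) (Fin 3) ℝ

/-- The components of a covariant four-tensor. -/
abbrev Ten4 := Fin 4 → Fin 4 → Fin 4 → Fin 4 → ℝ

/-- The partial derivative in the `i`-th coordinate. -/
def pd (f : Euc4 → ℝ) (i : Fin 4) (x : Euc4) : ℝ :=
  fderiv ℝ f x (EuclideanSpace.single i 1)

/-- The Christoffel symbol `Γ^k_{ij}` of `G`. -/
def gam (G : Euc4 → M4) (x : Euc4) (k i j : Fin 4) : ℝ :=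
  (1 / 2) * ∑ l, (G x)⁻¹ k l *
    (pd (fun y => G y j l) i x + pd (fun y => G y i l) j x - pd (fun y => G y i j) l x)

/-- The component `R^m_{l i j}`, the `∂m`-component of `R(∂i, ∂j) ∂l`. -/
def riemUp (G : Euc4 → M4) (x : Euc4) (m l i j : Fin 4) : ℝ :=
  pd (fun y => gam G y m j l) i x - pd (fun y => gam G y m i l) j x +
    ∑ p, (gam G x m i p * gam G x p j l - gam G x m j p * gam G x p i l)

/-- The covariant curvature tensor `g(R(∂i, ∂j) ∂l, ∂k)`. -/
def riem (G : Euc4 → M4) (x : Euc4) : Ten4 :=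
  fun i j k l => ∑ m, G x k m * riemUp G x m l i j

/-- The Ricci tensor of `G` in coordinates. -/
def ric (G : Euc4 → M4) (x : Euc4) (i j : Fin 4) : ℝ :=
  (∑ k, pd (fun y => gam G y k i j) k x) -
    (∑ k, pd (fun y => gam G y k i k) j x) +
    ∑ k, ∑ l, (gam G x k k l * gam G x l i j - gam G x k j l * gam G x l i k)

/-- The covariant derivative of the curvature tensor. -/
def covRiem (G : Euc4 → M4) (x : Euc4) (m i j k l : Fin 4) : ℝ :=
  pd (fun y => riem G y i j k l) m x -
    ∑ p, (gam G x p m i * riem G x p j k l + gam G x p m j * riem G x i p k l +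
      gam G x p m k * riem G x i j p l + gam G x p m l * riem G x i j k p)

/-- The Ricci tensor is three times the metric on `U`. -/
def IsEinsteinThree (G : Euc4 → M4) (U : Set Euc4) : Prop :=
  ∀ x ∈ U, ∀ i j, ric G x i j = 3 * G x i j

/-- The sectional curvature is nonnegative on `U`. -/
def SecNonneg (G : Euc4 → M4) (U : Set Euc4) : Prop :=
  ∀ x ∈ U, ∀ u v : Fin 4 → ℝ, 0 ≤ ∑ i, ∑ j, ∑ k, ∑ l, riem G x i j k l * u i * v j * u k * v l

/-- The columns of `P` are a positively oriented orthonormal frame for the inner product `G`. -/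
def IsPosFrame (G P : M4) : Prop :=
  P.transpose * G * P = 1 ∧ 0 < P.det

/-- The components of a four-tensor in the frame given by the columns of `P`. -/
def inFrame (P : M4) (R : Ten4) : Ten4 :=
  fun a b c d => ∑ i, ∑ j, ∑ k, ∑ l, R i j k l * P i a * P j b * P k c * P l d

/-- The self-dual complex structures of the standard frame. -/
def Jp : Fin 3 → M4 :=
  ![!![0, -1, 0, 0; 1, 0, 0, 0; 0, 0, 0, -1; 0, 0, 1, 0],
    !![0, 0, -1, 0; 0, 0, 0, 1; 1, 0, 0, 0; 0, -1, 0, 0],
    !![0, 0, 0, -1; 0, 0, -1, 0; 0, 1, 0, 0; 1, 0, 0, 0]]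

/-- The anti-self-dual complex structures of the standard frame. -/
def Jm : Fin 3 → M4 :=
  ![!![0, 1, 0, 0; -1, 0, 0, 0; 0, 0, 0, -1; 0, 0, 1, 0],
    !![0, 0, 1, 0; 0, 0, 0, 1; -1, 0, 0, 0; 0, -1, 0, 0],
    !![0, 0, 0, 1; 0, 0, -1, 0; 0, 1, 0, 0; -1, 0, 0, 0]]

/-- The block of the curvature operator between two triples of two-forms, normalised so that
the unit sphere gives the identity. -/
def block (R : Ten4) (J K : Fin 3 → M4) : M3 :=
  Matrix.of fun a b => (1 / 8) * ∑ i, ∑ j, ∑ k, ∑ l, J a i j * R i j k l * K b k l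

/-- The self-dual Weyl curvature is not zero at `x`, for a metric with Ricci tensor `3 G`. -/
def WpNeZeroAt (G : Euc4 → M4) (x : Euc4) : Prop :=
  ∃ P : M4, IsPosFrame (G x) P ∧ block (inFrame P (riem G x)) Jp Jp ≠ 1

/-- The anti-self-dual Weyl curvature is not zero at `x`, for a metric with Ricci tensor
`3 G`. -/
def WmNeZeroAt (G : Euc4 → M4) (x : Euc4) : Prop :=
  ∃ P : M4, IsPosFrame (G x) P ∧ block (inFrame P (riem G x)) Jm Jm ≠ 1

end

end Vale.Agent.P211
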