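import Vale.Agent.P211.Statement.Defs

/-!
# P211: a metric on a four-manifold, given by its coefficients in the charts

`G p` is the coefficient matrix in the chart at `p`.  Outside the target of that chart it is only
asked to be symmetric, so it may be extended arbitrarily.
-/

namespace Vale.Agent.P211

open scoped ContDiff

noncomputable section

/-- The Jacobian matrix of a map of `ℝ⁴`. -/
def jac (f : Euc4 → Euc4) (y : Euc4) : M4 :=
  Matrix.of fun i j => pd (fun z => f z i) j y

variable {X : Type*} [TopologicalSpace X] [ChartedSpace Euc4 X]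

/-- The change from the chart at `p` to the chart at `q`. -/
def tr (p q : X) : OpenPartialHomeomorph Euc4 Euc4 :=
  (chartAt Euc4 p).symm.trans (chartAt Euc4 q)

/-- The coefficients of a smooth Riemannian metric in all charts. -/
structure IsMetricAtlas (G : X → Euc4 → M4) : Prop where
  smooth : ∀ p i j, ContDiffOn ℝ ∞ (fun y => G p y i j) (chartAt Euc4 p).target
  symm : ∀ p y i j, G p y j i = G p y i j
  posDef : ∀ p, ∀ y ∈ (chartAt Euc4 p).target, (G p y).PosDef
  compat : ∀ p q, ∀ y ∈ (tr p q).source,
    G p y = (jac (tr p q) y).transpose * G q (tr p q y) * jac (tr p q) y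

/-- All chart changes preserve the orientation. -/
def IsOrientedAtlas (X : Type*) [TopologicalSpace X] [ChartedSpace Euc4 X] : Prop :=
  ∀ p q : X, ∀ y ∈ (tr p q).source, 0 < (jac (tr p q) y).det

/-- The Ricci tensor is three times the metric. -/
def IsEinsteinAtlas (G : X → Euc4 → M4) : Prop :=
  ∀ p, IsEinsteinThree (G p) (chartAt Euc4 p).target

/-- The sectional curvature is nonnegative. -/
def IsSecNonnegAtlas (G : X → Euc4 → M4) : Prop :=
  ∀ p, SecNonneg (G p) (chartAt Euc4 p).target

end

end Vale.Agent.P211
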